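import Vale.Agent.P065.UB.H415.CherDefs

/-!
# P065, upper bound, MACH1 (helper989): poles, literal Props

`Poles`: a `Cher` (415) with few apexes per (point, window), three apexes `o1`, `o2`, `o3` and a
dense set `F` of its pairs `(a, q)` such that all of `o1`, `o2`, `o3`, `a` are paired with `q`, the
cross ratio is bounded, and two windows of `q` seen from two of `o1`, `o2`, `a` share few points.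
`StSel`: the selection lemma (no fixed class, exceptional triples).
-/

set_option autoImplicit false

namespace Vale.Agent.P065.H989

open Finset Vale.Agent.P065.UB Vale.Agent.P065.UB.RankAux Vale.Agent.P065.H183
open Vale.Agent.P065.UB.H415

/-- coordinate of `u` for which `u1` is `0` and `u2` is infinity -/
noncomputable def rho (u1 u2 u : ℝ) : ℝ := (u - u1) / (u2 - u)

open Classical in
/-- **[SEL]**: `V` apexes, `Q` points, `E` pairs, `Bad` exceptional triples `(a, b, q)` -/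
def StSel : Prop :=
  ∃ C : ℕ, ∀ (K : ℝ) (V Q : Finset Pt) (E : Finset (Pt × Pt)) (u : Pt → ℝ)
    (Bad : Finset (Pt × Pt × Pt)), 2 ≤ K → E ⊆ V ×ˢ Q → (#V : ℝ) * #Q ≤ K * #E →
    K ^ C ≤ (#V : ℝ) → (∀ a ∈ V, ∀ b ∈ V, u a = u b → a = b) →
    K ^ C * (#Bad : ℝ) ≤ (#V : ℝ) ^ 2 * #Q →
    ∃ o1 ∈ V, ∃ o2 ∈ V, ∃ o3 ∈ V, o1 ≠ o2 ∧ o1 ≠ o3 ∧ o2 ≠ o3 ∧
      (#V : ℝ) * #Q ≤ K ^ C * #{e ∈ E | (o1, e.2) ∈ E ∧ (o2, e.2) ∈ E ∧ (o3, e.2) ∈ E ∧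
        e.1 ≠ o1 ∧ e.1 ≠ o2 ∧ e.1 ≠ o3 ∧
        (o1, o2, e.2) ∉ Bad ∧ (o1, e.1, e.2) ∉ Bad ∧ (o2, e.1, e.2) ∉ Bad ∧
        1 / 2 ≤ |rho (u o1) (u o2) (u e.1) / rho (u o1) (u o2) (u o3)| ∧
        |rho (u o1) (u o2) (u e.1) / rho (u o1) (u o2) (u o3)| ≤ 2}

open Classical in
/-- output of MACH1. All counts of points per cell are measured by `#Q / lam ^ 2`. -/
structure Poles (K lam : ℝ) (Q : Finset Pt) (W : Finset ℕ) (I : ℕ → Set ℝ) (R : ℕ → Finset Pt)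
    (c : Pt) (w0 : ℕ) (m0 : ℝ) (Pr : Finset (Pt × Pt)) (Wd : Pt × Pt → ℕ)
    (o1 o2 o3 : Pt) (F : Finset (Pt × Pt)) : Prop where
  two : 2 ≤ K
  cher : Cher K lam Q W I R c w0 m0 Pr Wd
  /-- a point sees few apexes through one window -/
  flag : ∀ (q : Pt) (w : ℕ),
    lam ^ 2 * #{a ∈ Pr.image Prod.fst | (a, q) ∈ Pr ∧ Wd (a, q) = w} ≤ K * #Q
  /-- number of apexes -/
  cA : lam * #(Pr.image Prod.fst) ≤ K * #Q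
  cA' : (#Q : ℝ) ≤ K * lam * #(Pr.image Prod.fst)
  n12 : o1 ≠ o2
  n13 : o1 ≠ o3
  n23 : o2 ≠ o3
  sub : F ⊆ Pr
  /-- the kept pairs are dense -/
  card : (#Q : ℝ) ^ 2 ≤ K * lam * #F
  e1 : ∀ e ∈ F, (o1, e.2) ∈ Pr
  e2 : ∀ e ∈ F, (o2, e.2) ∈ Pr
  e3 : ∀ e ∈ F, (o3, e.2) ∈ Pr
  a1 : ∀ e ∈ F, e.1 ≠ o1
  a2 : ∀ e ∈ F, e.1 ≠ o2
  a3 : ∀ e ∈ F, e.1 ≠ o3
  /-- cross ratio -/
  cr1 : ∀ e ∈ F, 1 / 2 ≤ |rho o1.1 o2.1 e.1.1 / rho o1.1 o2.1 o3.1|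
  cr2 : ∀ e ∈ F, |rho o1.1 o2.1 e.1.1 / rho o1.1 o2.1 o3.1| ≤ 2
  /-- different windows -/
  w12 : ∀ e ∈ F, Wd (o1, e.2) ≠ Wd (o2, e.2)
  w1a : ∀ e ∈ F, Wd (o1, e.2) ≠ Wd e
  w2a : ∀ e ∈ F, Wd (o2, e.2) ≠ Wd e
  /-- (P2) -/
  p12 : ∀ e ∈ F, lam ^ 2 * #{z ∈ Q | (o1, z) ∈ Pr ∧ (o2, z) ∈ Pr ∧
    Wd (o1, z) = Wd (o1, e.2) ∧ Wd (o2, z) = Wd (o2, e.2)} ≤ K * #Q
  p1a : ∀ e ∈ F, lam ^ 2 * #{z ∈ Q | (o1, z) ∈ Pr ∧ (e.1, z) ∈ Pr ∧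
    Wd (o1, z) = Wd (o1, e.2) ∧ Wd (e.1, z) = Wd e} ≤ K * #Q
  p2a : ∀ e ∈ F, lam ^ 2 * #{z ∈ Q | (o2, z) ∈ Pr ∧ (e.1, z) ∈ Pr ∧
    Wd (o2, z) = Wd (o2, e.2) ∧ Wd (e.1, z) = Wd e} ≤ K * #Q

/-- **MACH1** -/
def StPoles : Prop :=
  ∃ C : ℕ, ∀ (K lam : ℝ) (Q : Finset Pt) (W : Finset ℕ) (I : ℕ → Set ℝ) (R : ℕ → Finset Pt),
    JView K lam Q W I R → K ^ C ≤ lam → lam ^ C ≤ #Q →
    ∃ (c : Pt) (w0 : ℕ) (m0 : ℝ) (Pr : Finset (Pt × Pt)) (Wd : Pt × Pt → ℕ) (o1 o2 o3 : Pt)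
      (F : Finset (Pt × Pt)), Poles (K ^ C) lam Q W I R c w0 m0 Pr Wd o1 o2 o3 F

end Vale.Agent.P065.H989
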