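import Vale.Agent.P065.H989.PolesB
import Vale.Agent.P065.UB.H415.Cher

/-!
# P065, upper bound, MACH1 (helper989): `StSel → StGroup → StMult → StPoles`
-/

set_option autoImplicit false

namespace Vale.Agent.P065.H989

open Finset Vale.Agent.P065.UB Vale.Agent.P065.UB.RankAux Vale.Agent.P065.H183
open Vale.Agent.P065.UB.H415 Vale.Agent.P065.UB.H410

theorem ar1 {lam a q K κ p : ℝ} (hl0 : 0 < lam) (hκ : K ≤ κ) (hκ0 : 0 < κ) (hQ0 : 0 < q)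
    (hAR : lam * a ≤ K * q) (hc1 : q ^ 2 ≤ 2 * κ * lam * p) : a * q ≤ (2 * κ ^ 2) * p := by
  have e1 : lam * (a * q) ≤ lam * ((2 * κ ^ 2) * p) := by
    calc lam * (a * q) = (lam * a) * q := by ring
      _ ≤ (K * q) * q := mul_le_mul_of_nonneg_right hAR hQ0.le
      _ = K * q ^ 2 := by ring
      _ ≤ κ * q ^ 2 := mul_le_mul_of_nonneg_right hκ (by positivity)
      _ ≤ κ * (2 * κ * lam * p) := mul_le_mul_of_nonneg_left hc1 hκ0.le
      _ = _ := by ring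
  exact le_of_mul_le_mul_left e1 hl0

theorem ar2 {lam a q κ T S : ℝ} (hl0 : 0 < lam) (hκ0 : 0 < κ) (hT1 : 1 ≤ T) (hS0 : 0 < S)
    (e1 : lam ^ 2 ≤ q) (hap : q ≤ 2 * κ * lam * a) (hb : 4 * κ * T * S ≤ lam) : S ≤ a := by
  have e2 : 2 * κ * S ≤ lam := by
    have : 2 * κ * S ≤ 4 * κ * T * S := by
      have t1 : 0 ≤ κ * S := by positivity
      nlinarith
    linarith
  have e3 : (2 * κ * lam) * S ≤ (2 * κ * lam) * a := by
    calc (2 * κ * lam) * S = lam * (2 * κ * S) := by ring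
      _ ≤ lam * lam := mul_le_mul_of_nonneg_left e2 hl0.le
      _ = lam ^ 2 := by ring
      _ ≤ q := e1
      _ ≤ _ := hap
  exact le_of_mul_le_mul_left e3 (by positivity)

theorem ar3 {lam a q κ S P f : ℝ} (hl0 : 0 < lam) (hκ0 : 0 < κ) (hQ0 : 0 < q) (hf : 0 ≤ f)
    (hap : q ≤ 2 * κ * lam * a) (hF : a * q ≤ S * f) (b5 : 2 * κ * S ≤ P) :
    q ^ 2 ≤ P * lam * f := by
  calc q ^ 2 = q * q := by ring
    _ ≤ (2 * κ * lam * a) * q := mul_le_mul_of_nonneg_right hap hQ0.le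
    _ = (2 * κ * lam) * (a * q) := by ring
    _ ≤ (2 * κ * lam) * (S * f) := mul_le_mul_of_nonneg_left hF (by positivity)
    _ = (2 * κ * S) * (lam * f) := by ring
    _ ≤ P * (lam * f) := mul_le_mul_of_nonneg_right b5 (by positivity)
    _ = _ := by ring

open Classical in
/-- the step after [CHER], with powers of `K` -/
theorem poles_of_cher {s : ℕ} {K lam : ℝ} {Q : Finset Pt} {W : Finset ℕ} {I : ℕ → Set ℝ}
    {R : ℕ → Finset Pt} {c : Pt} {w0 : ℕ} {m0 : ℝ} {Pr : Finset (Pt × Pt)} {Wd : Pt × Pt → ℕ}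
    (hSel : ∀ (K : ℝ) (V Q : Finset Pt) (E : Finset (Pt × Pt)) (u : Pt → ℝ)
      (Bad : Finset (Pt × Pt × Pt)), 2 ≤ K → E ⊆ V ×ˢ Q → (#V : ℝ) * #Q ≤ K * #E →
      K ^ s ≤ (#V : ℝ) → (∀ a ∈ V, ∀ b ∈ V, u a = u b → a = b) →
      K ^ s * (#Bad : ℝ) ≤ (#V : ℝ) ^ 2 * #Q →
      ∃ o1 ∈ V, ∃ o2 ∈ V, ∃ o3 ∈ V, o1 ≠ o2 ∧ o1 ≠ o3 ∧ o2 ≠ o3 ∧
        (#V : ℝ) * #Q ≤ K ^ s * #{e ∈ E | (o1, e.2) ∈ E ∧ (o2, e.2) ∈ E ∧ (o3, e.2) ∈ E ∧
          e.1 ≠ o1 ∧ e.1 ≠ o2 ∧ e.1 ≠ o3 ∧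
          (o1, o2, e.2) ∉ Bad ∧ (o1, e.1, e.2) ∉ Bad ∧ (o2, e.1, e.2) ∉ Bad ∧
          1 / 2 ≤ |rho (u o1) (u o2) (u e.1) / rho (u o1) (u o2) (u o3)| ∧
          |rho (u o1) (u o2) (u e.1) / rho (u o1) (u o2) (u o3)| ≤ 2})
    (hG : StGroup) (hM : StMult) (hV : JView K lam Q W I R) {κ : ℝ} (hκ : K ≤ κ)
    (h : Cher κ lam Q W I R c w0 m0 Pr Wd)
    (hQ : lam ^ 5 ≤ (#Q : ℝ)) {P : ℝ} (hP : ∃ T S D : ℝ, T = 2 * (K ^ 2 * (508 * κ ^ 2) ^ 6) ∧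
      S = (2 * κ ^ 2) ^ s ∧ D = 2056 * S ∧ 2 * κ ≤ P ∧ T ≤ P ∧
      4 * κ * T * S ≤ lam ∧ 2 * κ * S ≤ P ∧ 32 * (K * (T * (2 * κ)) * D ^ 6) ≤ P) :
    ∃ (Pr1 : Finset (Pt × Pt)) (o1 o2 o3 : Pt) (F : Finset (Pt × Pt)),
      Pr1 ⊆ Pr ∧ Poles P lam Q W I R c w0 m0 Pr1 Wd o1 o2 o3 F := by
  obtain ⟨T, S, D, hT, hS, hD, b1, b2, b4, b5, b6⟩ := hP
  have hK2 := hV.two
  have hl1 := hV.one
  have hl0 : 0 < lam := by linarith
  have hκ2 : 2 ≤ κ := hK2.trans hκ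
  have hP2 : 2 ≤ P := by linarith
  have hQ0 : 0 < (#Q : ℝ) := lt_of_lt_of_le (by positivity) hQ
  obtain ⟨Pr1, hs1, hc1, hf1⟩ := flag_step hG hV hQ h hκ hQ0 (le_refl (508 * κ ^ 2))
  rw [← hT] at hf1
  have hκ0 : 0 < κ := by linarith
  have hch : Cher (2 * κ) lam Q W I R c w0 m0 Pr1 Wd := cher_sub h (by linarith) hs1 hc1
  have hS1 : 1 ≤ S := by
    rw [hS]
    exact one_le_pow₀ (by nlinarith)
  have hT1 : 1 ≤ T := by
    have a1 : (1 : ℝ) ≤ K ^ 2 := one_le_pow₀ (by linarith)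
    have a2 : (1 : ℝ) ≤ (508 * κ ^ 2) ^ 6 := one_le_pow₀ (by nlinarith)
    rw [hT]
    nlinarith
  obtain ⟨B, hB1, hB2⟩ := p2_step hM hV hQ hch (by linarith) hQ0 hT1 hf1 hS1 hD.ge
    (by linarith)
  set A : Finset Pt := Pr1.image Prod.fst with hA
  have hap := card_apex hch (by linarith) hl0.le hQ0
  have hAR : lam * (#A : ℝ) ≤ K * #Q := by
    refine le_trans ?_ (hV.cardR w0 h.w0W)
    refine mul_le_mul_of_nonneg_left ?_ hl0.le
    have : A ⊆ R w0 := by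
      intro z hz
      obtain ⟨e, he, rfl⟩ := mem_image.1 hz
      exact (hch.jc e he).2.1
    exact_mod_cast card_le_card this
  have hκκ : 2 ≤ 2 * κ ^ 2 := by nlinarith
  -- the density of the pairs
  have hdens : (#A : ℝ) * #Q ≤ (2 * κ ^ 2) * #Pr1 := ar1 hl0 hκ hκ0 hQ0 hAR hc1
  -- many apexes
  have hVbig : (2 * κ ^ 2) ^ s ≤ (#A : ℝ) := by
    rw [← hS]
    exact ar2 hl0 hκ0 hT1 (by linarith) ((pow_le_pow_right₀ hl1 (by norm_num)).trans hQ) hap b4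
  have hinj : ∀ a ∈ A, ∀ b ∈ A, (fun p : Pt => p.1) a = (fun p : Pt => p.1) b → a = b := by
    intro a ha b hb hab
    obtain ⟨e, he, rfl⟩ := mem_image.1 ha
    obtain ⟨e', he', rfl⟩ := mem_image.1 hb
    exact hV.xinj _ (hch.mem1 e he) _ (hch.mem1 e' he') hab
  obtain ⟨o1, _, o2, _, o3, _, n12, n13, n23, hF⟩ := hSel (2 * κ ^ 2) A Q Pr1 (fun p => p.1) B hκκ
    (fun e he => mem_product.2 ⟨mem_image.2 ⟨e, he, rfl⟩, hch.mem2 e he⟩) hdens hVbig hinj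
    (by rw [← hS]; exact hB1)
  set F : Finset (Pt × Pt) := {e ∈ Pr1 | (o1, e.2) ∈ Pr1 ∧ (o2, e.2) ∈ Pr1 ∧ (o3, e.2) ∈ Pr1 ∧
          e.1 ≠ o1 ∧ e.1 ≠ o2 ∧ e.1 ≠ o3 ∧
          (o1, o2, e.2) ∉ B ∧ (o1, e.1, e.2) ∉ B ∧ (o2, e.1, e.2) ∉ B ∧
          1 / 2 ≤ |rho o1.1 o2.1 e.1.1 / rho o1.1 o2.1 o3.1| ∧
          |rho o1.1 o2.1 e.1.1 / rho o1.1 o2.1 o3.1| ≤ 2} with hFdef
  have hFs : F ⊆ Pr1 := filter_subset _ _
  have hcardF : (#Q : ℝ) ^ 2 ≤ P * lam * #F :=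
    ar3 hl0 hκ0 hQ0 (Nat.cast_nonneg _) hap (hS ▸ hF) b5
  have hcher : Cher P lam Q W I R c w0 m0 Pr1 Wd := cher_sub hch b1 subset_rfl
    (hc1.trans (by
      have : (2 * κ * lam) * (#Pr1 : ℝ) ≤ (P * lam) * #Pr1 := by
        refine mul_le_mul_of_nonneg_right ?_ (Nat.cast_nonneg _)
        exact mul_le_mul_of_nonneg_right b1 hl0.le
      exact this))
  have hp2 : ∀ x : ℝ, x ≤ 32 * (K * (T * (2 * κ)) * D ^ 6) * #Q → x ≤ P * #Q := fun x hx =>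
    hx.trans (mul_le_mul_of_nonneg_right b6 hQ0.le)
  refine ⟨Pr1, o1, o2, o3, F, hs1, ?_⟩
  have hFm : ∀ f ∈ F, f ∈ Pr1 ∧ (o1, f.2) ∈ Pr1 ∧ (o2, f.2) ∈ Pr1 ∧ (o3, f.2) ∈ Pr1 ∧
          f.1 ≠ o1 ∧ f.1 ≠ o2 ∧ f.1 ≠ o3 ∧
          (o1, o2, f.2) ∉ B ∧ (o1, f.1, f.2) ∉ B ∧ (o2, f.1, f.2) ∉ B ∧
          1 / 2 ≤ |rho o1.1 o2.1 f.1.1 / rho o1.1 o2.1 o3.1| ∧
          |rho o1.1 o2.1 f.1.1 / rho o1.1 o2.1 o3.1| ≤ 2 := fun f hf => mem_filter.1 hf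
  exact
    { two := hP2
      cher := hcher
      flag := fun q w => (hf1 q w).trans (mul_le_mul_of_nonneg_right b2 hQ0.le)
      cA := hAR.trans (mul_le_mul_of_nonneg_right (by linarith) hQ0.le)
      cA' := by
        refine hap.trans ?_
        refine mul_le_mul_of_nonneg_right ?_ (Nat.cast_nonneg _)
        exact mul_le_mul_of_nonneg_right b1 hl0.le
      n12 := n12
      n13 := n13
      n23 := n23
      sub := hFs
      card := hcardF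
      e1 := fun f hf => (hFm f hf).2.1
      e2 := fun f hf => (hFm f hf).2.2.1
      e3 := fun f hf => (hFm f hf).2.2.2.1
      a1 := fun f hf => (hFm f hf).2.2.2.2.1
      a2 := fun f hf => (hFm f hf).2.2.2.2.2.1
      a3 := fun f hf => (hFm f hf).2.2.2.2.2.2.1
      cr1 := fun f hf => (hFm f hf).2.2.2.2.2.2.2.2.2.2.1
      cr2 := fun f hf => (hFm f hf).2.2.2.2.2.2.2.2.2.2.2
      w12 := fun f hf =>
        (hB2 o1 o2 f.2 (hFm f hf).2.1 (hFm f hf).2.2.1 (hFm f hf).2.2.2.2.2.2.2.1).1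
      w1a := fun f hf =>
        (hB2 o1 f.1 f.2 (hFm f hf).2.1 (hFm f hf).1 (hFm f hf).2.2.2.2.2.2.2.2.1).1
      w2a := fun f hf =>
        (hB2 o2 f.1 f.2 (hFm f hf).2.2.1 (hFm f hf).1 (hFm f hf).2.2.2.2.2.2.2.2.2.1).1
      p12 := fun f hf =>
        hp2 _ (hB2 o1 o2 f.2 (hFm f hf).2.1 (hFm f hf).2.2.1 (hFm f hf).2.2.2.2.2.2.2.1).2
      p1a := fun f hf =>
        hp2 _ (hB2 o1 f.1 f.2 (hFm f hf).2.1 (hFm f hf).1 (hFm f hf).2.2.2.2.2.2.2.2.1).2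
      p2a := fun f hf =>
        hp2 _ (hB2 o2 f.1 f.2 (hFm f hf).2.2.1 (hFm f hf).1 (hFm f hf).2.2.2.2.2.2.2.2.2.1).2 }

/-- **MACH1** -/
theorem stPoles_of (hSel : StSel) (hG : StGroup) (hM : StMult) : StPoles := by
  obtain ⟨s, hSel⟩ := hSel
  obtain ⟨c0, hC⟩ := stCher
  refine ⟨13 * c0 + 154 + 6 * ((2 * c0 + 3) * s), ?_⟩
  intro K lam Q W I R hV hKl hlQ
  have hK2 := hV.two
  have hl1 := hV.one
  have hK1 : 1 ≤ K := by linarith
  have hK0 : 0 < K := by linarith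
  have hmono : ∀ {a b : ℕ}, a ≤ b → K ^ a ≤ K ^ b := fun h => pow_le_pow_right₀ hK1 h
  have h2 : ∀ n : ℕ, (2 : ℝ) ^ n ≤ K ^ n := fun n => pow_le_pow_left₀ (by norm_num) hK2 n
  set C : ℕ := 13 * c0 + 154 + 6 * ((2 * c0 + 3) * s) with hCdef
  have hQ5 : lam ^ 5 ≤ (#Q : ℝ) := (pow_le_pow_right₀ hl1 (by omega)).trans hlQ
  obtain ⟨c, w0, m0, Pr, Wd, hch⟩ := hC K lam Q W I R hV ((hmono (by omega)).trans hKl)
    ((pow_le_pow_right₀ hl1 (by omega)).trans hlQ)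
  set κ : ℝ := K ^ (c0 + 1) with hκ
  have hκ0 : 0 < κ := by positivity
  have hKκ : K ≤ κ := by
    calc K = K ^ 1 := (pow_one K).symm
      _ ≤ _ := hmono (by omega)
  have hcκ : K ^ c0 ≤ κ := hmono (by omega)
  have hch' : Cher κ lam Q W I R c w0 m0 Pr Wd := cher_sub hch hcκ subset_rfl (hch.card.trans (by
    refine mul_le_mul_of_nonneg_right ?_ (Nat.cast_nonneg _)
    exact mul_le_mul_of_nonneg_right hcκ (by linarith)))
  set T : ℝ := 2 * (K ^ 2 * (508 * κ ^ 2) ^ 6) with hT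
  set S : ℝ := (2 * κ ^ 2) ^ s with hS
  have hS0 : 0 < S := by positivity
  have hT0 : 0 < T := by positivity
  have k1 : 2 * κ ≤ K ^ (c0 + 2) := by
    calc 2 * κ ≤ K * κ := mul_le_mul_of_nonneg_right hK2 hκ0.le
      _ = K ^ (c0 + 2) := by rw [hκ]; ring
  have k2 : 508 * κ ^ 2 ≤ K ^ (2 * c0 + 11) := by
    have : (508 : ℝ) ≤ K ^ 9 := le_trans (by norm_num) (h2 9)
    calc 508 * κ ^ 2 ≤ K ^ 9 * κ ^ 2 := mul_le_mul_of_nonneg_right this (by positivity)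
      _ = K ^ (2 * c0 + 11) := by rw [hκ]; ring
  have k3 : T ≤ K ^ (12 * c0 + 69) := by
    calc T ≤ K * (K ^ 2 * (K ^ (2 * c0 + 11)) ^ 6) := by
          rw [hT]
          refine mul_le_mul hK2 ?_ (by positivity) hK0.le
          refine mul_le_mul_of_nonneg_left ?_ (by positivity)
          exact pow_le_pow_left₀ (by positivity) k2 6
      _ = K ^ (12 * c0 + 69) := by ring
  have k4 : 2 * κ ^ 2 ≤ K ^ (2 * c0 + 3) := by
    calc 2 * κ ^ 2 ≤ K * κ ^ 2 := mul_le_mul_of_nonneg_right hK2 (by positivity)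
      _ = K ^ (2 * c0 + 3) := by rw [hκ]; ring
  have k5 : S ≤ K ^ ((2 * c0 + 3) * s) := by
    rw [pow_mul]
    exact pow_le_pow_left₀ (by positivity) k4 s
  have k6 : 2056 * S ≤ K ^ (12 + (2 * c0 + 3) * s) := by
    have : (2056 : ℝ) ≤ K ^ 12 := le_trans (by norm_num) (h2 12)
    calc 2056 * S ≤ K ^ 12 * K ^ ((2 * c0 + 3) * s) :=
          mul_le_mul this k5 hS0.le (by positivity)
      _ = _ := by rw [← pow_add]
  obtain ⟨Pr1, o1, o2, o3, F, -, hP⟩ := poles_of_cher (P := K ^ C) hSel hG hM hV hKκ hch' hQ5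
    ⟨T, S, 2056 * S, hT, hS, rfl, k1.trans (hmono (by omega)), k3.trans (hmono (by omega)), by
      have : 4 * κ * T * S = (2 * (2 * κ)) * T * S := by ring
      rw [this]
      refine le_trans ?_ hKl
      calc (2 * (2 * κ)) * T * S ≤ (K * K ^ (c0 + 2)) * K ^ (12 * c0 + 69) *
            K ^ ((2 * c0 + 3) * s) := by
            refine mul_le_mul (mul_le_mul (mul_le_mul hK2 k1 (by positivity) hK0.le) k3 hT0.le
              (by positivity)) k5 hS0.le (by positivity)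
        _ = K ^ (1 + (c0 + 2) + (12 * c0 + 69) + (2 * c0 + 3) * s) := by
            rw [pow_add K (1 + (c0 + 2) + (12 * c0 + 69)), pow_add K (1 + (c0 + 2)), pow_add K 1,
              pow_one]
        _ ≤ K ^ C := hmono (by omega), by
      calc 2 * κ * S ≤ K ^ (c0 + 2) * K ^ ((2 * c0 + 3) * s) :=
            mul_le_mul k1 k5 hS0.le (by positivity)
        _ = K ^ (c0 + 2 + (2 * c0 + 3) * s) := by rw [← pow_add]
        _ ≤ K ^ C := hmono (by omega), by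
      have : (32 : ℝ) ≤ K ^ 5 := le_trans (by norm_num) (h2 5)
      calc 32 * (K * (T * (2 * κ)) * (2056 * S) ^ 6)
          ≤ K ^ 5 * (K * (K ^ (12 * c0 + 69) * K ^ (c0 + 2)) *
            (K ^ (12 + (2 * c0 + 3) * s)) ^ 6) := by
            refine mul_le_mul this ?_ (by positivity) (by positivity)
            refine mul_le_mul ?_ (pow_le_pow_left₀ (by positivity) k6 6) (by positivity)
              (by positivity)
            refine mul_le_mul_of_nonneg_left ?_ hK0.le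
            exact mul_le_mul k3 k1 (by positivity) (by positivity)
        _ = K ^ (5 + (1 + ((12 * c0 + 69) + (c0 + 2)) + (12 + (2 * c0 + 3) * s) * 6)) := by
            rw [pow_add K 5, pow_add K (1 + ((12 * c0 + 69) + (c0 + 2))), pow_add K 1,
              pow_add K (12 * c0 + 69), pow_one, pow_mul]
        _ ≤ K ^ C := hmono (by omega)⟩
  exact ⟨c, w0, m0, Pr1, Wd, o1, o2, o3, F, hP⟩

end Vale.Agent.P065.H989
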