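import Vale.Agent.P065.H989.PolesDefs
import Vale.Agent.P065.UB.H410.MultDefs

/-!
# P065, upper bound, MACH1 (helper989): FLAG and (P2) for a `Cher`
-/

set_option autoImplicit false

namespace Vale.Agent.P065.H989

open Finset Vale.Agent.P065.UB Vale.Agent.P065.UB.RankAux Vale.Agent.P065.H183
open Vale.Agent.P065.UB.H415 Vale.Agent.P065.UB.H410

variable {K K' lam : ℝ} {Q : Finset Pt} {W : Finset ℕ} {I : ℕ → Set ℝ} {R : ℕ → Finset Pt}
  {c : Pt} {w0 : ℕ} {m0 : ℝ} {Pr : Finset (Pt × Pt)} {Wd : Pt × Pt → ℕ}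

/-- a dense subset of the pairs of a `Cher` -/
theorem cher_sub (h : Cher K lam Q W I R c w0 m0 Pr Wd) (hK : K ≤ K') {Pr1 : Finset (Pt × Pt)}
    (hs : Pr1 ⊆ Pr) (hc : (#Q : ℝ) ^ 2 ≤ K' * lam * #Pr1) :
    Cher K' lam Q W I R c w0 m0 Pr1 Wd := by
  have hQ : (0 : ℝ) ≤ #Q := Nat.cast_nonneg _
  have hm : K * #Q ≤ K' * #Q := mul_le_mul_of_nonneg_right hK hQ
  exact
    { w0W := h.w0W
      cQ := h.cQ
      m0I := h.m0I
      card := hc
      mem1 := fun e he => h.mem1 e (hs he)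
      mem2 := fun e he => h.mem2 e (hs he)
      jc := fun e he => h.jc e (hs he)
      wdW := fun e he => h.wdW e (hs he)
      wd0 := fun e he => h.wd0 e (hs he)
      jq := fun e he => h.jq e (hs he)
      ex := fun e he => h.ex e (hs he)
      secc := h.secc.trans hm
      seca0 := fun e he => (h.seca0 e (hs he)).trans hm
      seca := fun e he => (h.seca e (hs he)).trans hm
      secq := fun e he => (h.secq e (hs he)).trans hm
      side := h.side.imp (fun h1 e he => h1 e (hs he)) (fun h1 e he => h1 e (hs he))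
      above := h.above.imp (fun h1 e he => h1 e (hs he)) (fun h1 e he => h1 e (hs he)) }

theorem ceil_bd {x : ℝ} (hx : 1 ≤ x) : (⌈x⌉₊ : ℝ) ≤ 2 * x := by
  have := (Nat.ceil_lt_add_one (by linarith : (0 : ℝ) ≤ x)).le
  linarith

open Classical in
/-- **FLAG** for a `Cher`, from `StGroup`: `D ≥ 508 K' ^ 2` -/
theorem flag_step (hG : StGroup) (hV : JView K lam Q W I R) (h5 : lam ^ 5 ≤ (#Q : ℝ))
    (h : Cher K' lam Q W I R c w0 m0 Pr Wd) (hKK : K ≤ K') (hQ0 : 0 < (#Q : ℝ))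
    {D : ℝ} (hD : 508 * K' ^ 2 ≤ D) :
    ∃ Pr1 ⊆ Pr, (#Q : ℝ) ^ 2 ≤ 2 * K' * lam * #Pr1 ∧
      ∀ (q : Pt) (w : ℕ), lam ^ 2 * #{a ∈ Pr1.image Prod.fst | (a, q) ∈ Pr1 ∧ Wd (a, q) = w} ≤
        2 * (K ^ 2 * D ^ 6) * #Q := by
  have hK2 := hV.two
  have hl1 := hV.one
  have hl0 : 0 < lam := by linarith
  have hK0 : 0 < K := by linarith
  have hK'2 : 2 ≤ K' := hK2.trans hKK
  have hK'0 : 0 < K' := by linarith
  have hD1 : 1 ≤ D := by nlinarith [sq_nonneg K']
  set x : ℝ := K ^ 2 * D ^ 6 * #Q / lam ^ 2 with hx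
  have hl2 : lam ^ 2 ≤ #Q := by
    refine le_trans ?_ h5
    exact pow_le_pow_right₀ hl1 (by norm_num)
  have hx1 : 1 ≤ x := by
    rw [hx, le_div_iff₀ (by positivity), one_mul]
    have h1 : (1 : ℝ) ≤ K ^ 2 * D ^ 6 := by
      have a1 : (1 : ℝ) ≤ K ^ 2 := one_le_pow₀ (by linarith)
      have a2 : (1 : ℝ) ≤ D ^ 6 := one_le_pow₀ hD1
      nlinarith
    calc lam ^ 2 ≤ 1 * #Q := by rw [one_mul]; exact hl2
      _ ≤ K ^ 2 * D ^ 6 * #Q := mul_le_mul_of_nonneg_right h1 hQ0.le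
  set M : ℕ := ⌈x⌉₊ with hM
  have hM1 : 1 ≤ M := Nat.one_le_ceil_iff.2 (by linarith)
  have hMx : x ≤ M := Nat.le_ceil x
  have hMx2 : (M : ℝ) ≤ 2 * x := ceil_bd hx1
  set g : Finset Pt := Pr.image Prod.fst with hg
  have hgR : g ⊆ R w0 := by
    intro z hz
    obtain ⟨e, he, rfl⟩ := mem_image.1 hz
    exact (h.jc e he).2.1
  have hgc : lam * #g ≤ K * #Q := by
    refine le_trans ?_ (hV.cardR w0 h.w0W)
    exact mul_le_mul_of_nonneg_left (by exact_mod_cast card_le_card hgR) hl0.le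
  have hmain := hG K lam Q W I R hV h5 c w0 m0 h.w0W h.m0I g Q
    (by
      intro z hz
      obtain ⟨e, he, rfl⟩ := mem_image.1 hz
      exact ⟨h.mem1 e he, (h.jc e he).2.2.2⟩)
    (by
      rcases h.side with h1 | h1
      · left
        intro z hz
        obtain ⟨e, he, rfl⟩ := mem_image.1 hz
        exact h1 e he
      · right
        intro z hz
        obtain ⟨e, he, rfl⟩ := mem_image.1 hz
        exact h1 e he)
    Pr Wd
    (by
      intro e he
      exact ⟨mem_image.2 ⟨e, he, rfl⟩, h.mem2 e he, h.wdW e he, h.wd0 e he, (h.jq e he).1,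
        (h.jq e he).2.2.1, h.ex e he⟩)
    K (by linarith)
    (by
      intro z hz w hw
      refine le_trans ?_ (hV.cardR w hw)
      refine mul_le_mul_of_nonneg_left ?_ hl0.le
      have : {b ∈ Q | (z, b) ∈ Pr ∧ Wd (z, b) = w} ⊆ R w := by
        intro b hb
        obtain ⟨_, hb1, hb2⟩ := mem_filter.1 hb
        have := (h.jq _ hb1).2.1
        rwa [hb2] at this
      exact_mod_cast card_le_card this)
    M D hM1 hD1
    (by
      have := hMx
      rw [hx, div_le_iff₀ (by positivity)] at this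
      calc K * K * D ^ 6 * #Q = K ^ 2 * D ^ 6 * #Q := by ring
        _ ≤ M * lam ^ 2 := this
        _ = lam ^ 2 * M := by ring)
  set B1 : Finset (Pt × Pt) :=
    {e ∈ Pr | M ≤ #{z ∈ g | (z, e.2) ∈ Pr ∧ Wd (z, e.2) = Wd e}} with hB1
  have hB : 2 * (#B1 : ℝ) ≤ #Pr := by
    have e1 : D * #B1 * lam ≤ 254 * K' ^ 2 * #Pr * lam := by
      have a1 : D * #B1 * lam ≤ (253 * (lam * #g) + lam * #{p ∈ Q | sl c p ∈ I w0}) * #Q := by
        calc D * #B1 * lam ≤ ((253 * #g + #{p ∈ Q | sl c p ∈ I w0}) * #Q) * lam :=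
              mul_le_mul_of_nonneg_right hmain hl0.le
          _ = _ := by ring
      have a2 : 253 * (lam * #g) + lam * #{p ∈ Q | sl c p ∈ I w0} ≤ 254 * (K' * #Q) := by
        have := h.secc
        have b1 : K * (#Q : ℝ) ≤ K' * #Q := mul_le_mul_of_nonneg_right hKK hQ0.le
        linarith
      calc D * #B1 * lam ≤ _ := a1
        _ ≤ (254 * (K' * #Q)) * #Q := mul_le_mul_of_nonneg_right a2 hQ0.le
        _ = 254 * K' * (#Q : ℝ) ^ 2 := by ring
        _ ≤ 254 * K' * (K' * lam * #Pr) := mul_le_mul_of_nonneg_left h.card (by positivity)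
        _ = _ := by ring
    have e2 : D * #B1 ≤ 254 * K' ^ 2 * #Pr := le_of_mul_le_mul_right e1 hl0
    have e3 : 508 * K' ^ 2 * #B1 ≤ D * #B1 :=
      mul_le_mul_of_nonneg_right hD (Nat.cast_nonneg _)
    have e4 : (254 * K' ^ 2) * (2 * #B1) ≤ (254 * K' ^ 2) * #Pr := by linarith
    exact le_of_mul_le_mul_left e4 (by positivity)
  have hsplit : (#Pr : ℝ) = #(Pr \ B1) + #B1 := by
    have := card_sdiff_add_card_eq_card (filter_subset _ _ : B1 ⊆ Pr)
    exact_mod_cast this.symm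
  refine ⟨Pr \ B1, sdiff_subset, ?_, ?_⟩
  · have e1 : (#Pr : ℝ) ≤ 2 * #(Pr \ B1) := by linarith
    calc (#Q : ℝ) ^ 2 ≤ K' * lam * #Pr := h.card
      _ ≤ K' * lam * (2 * #(Pr \ B1)) := mul_le_mul_of_nonneg_left e1 (by positivity)
      _ = _ := by ring
  · intro q w
    have hfl : (#{a ∈ (Pr \ B1).image Prod.fst | (a, q) ∈ Pr \ B1 ∧ Wd (a, q) = w} : ℝ) ≤ M := by
      rcases Finset.eq_empty_or_nonempty
        {a ∈ (Pr \ B1).image Prod.fst | (a, q) ∈ Pr \ B1 ∧ Wd (a, q) = w} with h0 | ⟨a0, ha0⟩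
      · rw [h0]
        simp
      · obtain ⟨_, hp, hw⟩ := mem_filter.1 ha0
        obtain ⟨hpP, hpB⟩ := mem_sdiff.1 hp
        have h1 : #{z ∈ g | (z, q) ∈ Pr ∧ Wd (z, q) = Wd (a0, q)} < M := by
          by_contra hcon
          exact hpB (mem_filter.2 ⟨hpP, not_lt.1 hcon⟩)
        have h2 : {a ∈ (Pr \ B1).image Prod.fst | (a, q) ∈ Pr \ B1 ∧ Wd (a, q) = w} ⊆
            {z ∈ g | (z, q) ∈ Pr ∧ Wd (z, q) = Wd (a0, q)} := by
          intro a ha
          obtain ⟨_, hap, haw⟩ := mem_filter.1 ha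
          have hap' := (mem_sdiff.1 hap).1
          exact mem_filter.2 ⟨mem_image.2 ⟨_, hap', rfl⟩, hap', haw.trans hw.symm⟩
        exact_mod_cast (card_le_card h2).trans h1.le
    calc lam ^ 2 * #{a ∈ (Pr \ B1).image Prod.fst | (a, q) ∈ Pr \ B1 ∧ Wd (a, q) = w}
        ≤ lam ^ 2 * M := mul_le_mul_of_nonneg_left hfl (by positivity)
      _ ≤ lam ^ 2 * (2 * x) := mul_le_mul_of_nonneg_left hMx2 (by positivity)
      _ = 2 * (K ^ 2 * D ^ 6) * #Q := by
          rw [hx]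
          field_simp

end Vale.Agent.P065.H989
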