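import Vale.Agent.P065.H989.PolesA

/-!
# P065, upper bound, MACH1 (helper989): the exceptional triples
-/

set_option autoImplicit false

namespace Vale.Agent.P065.H989

open Finset Vale.Agent.P065.UB Vale.Agent.P065.UB.RankAux Vale.Agent.P065.H183
open Vale.Agent.P065.UB.H415 Vale.Agent.P065.UB.H410

variable {K K' lam : ℝ} {Q : Finset Pt} {W : Finset ℕ} {I : ℕ → Set ℝ} {R : ℕ → Finset Pt}
  {c : Pt} {w0 : ℕ} {m0 : ℝ} {Pr : Finset (Pt × Pt)} {Wd : Pt × Pt → ℕ}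

open Classical in
theorem card_pr (h : Cher K' lam Q W I R c w0 m0 Pr Wd) :
    (#Pr : ℝ) ≤ #(Pr.image Prod.fst) * #Q := by
  have h1 : Pr ⊆ (Pr.image Prod.fst) ×ˢ Q := fun e he =>
    mem_product.2 ⟨mem_image.2 ⟨e, he, rfl⟩, h.mem2 e he⟩
  have h2 := card_le_card h1
  rw [card_product] at h2
  exact_mod_cast h2

open Classical in
theorem card_apex (h : Cher K' lam Q W I R c w0 m0 Pr Wd) (hK : 0 ≤ K') (hl : 0 ≤ lam)
    (hQ : 0 < (#Q : ℝ)) : (#Q : ℝ) ≤ K' * lam * #(Pr.image Prod.fst) := by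
  have h1 := h.card
  have h2 : (#Q : ℝ) * #Q ≤ (K' * lam * #(Pr.image Prod.fst)) * #Q := by
    calc (#Q : ℝ) * #Q = (#Q : ℝ) ^ 2 := by ring
      _ ≤ K' * lam * #Pr := h1
      _ ≤ K' * lam * (#(Pr.image Prod.fst) * #Q) :=
          mul_le_mul_of_nonneg_left (card_pr h) (by positivity)
      _ = _ := by ring
  exact le_of_mul_le_mul_right h2 hQ

open Classical in
/-- **(P2)** for a `Cher` with few apexes per point and window, from `StMult` -/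
theorem p2_step (hM : StMult) (hV : JView K lam Q W I R) (h5 : lam ^ 5 ≤ (#Q : ℝ))
    (h : Cher K' lam Q W I R c w0 m0 Pr Wd) (hK' : 1 ≤ K') (hQ0 : 0 < (#Q : ℝ))
    {T : ℝ} (hT : 1 ≤ T)
    (hfl : ∀ (q : Pt) (w : ℕ),
      lam ^ 2 * #{a ∈ Pr.image Prod.fst | (a, q) ∈ Pr ∧ Wd (a, q) = w} ≤ T * #Q)
    {S D : ℝ} (hS : 1 ≤ S) (hD : 2056 * S ≤ D) (hlam : 2 * K' * T * S ≤ lam) :
    ∃ B : Finset (Pt × Pt × Pt), S * #B ≤ (#(Pr.image Prod.fst) : ℝ) ^ 2 * #Q ∧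
      ∀ a b q : Pt, (a, q) ∈ Pr → (b, q) ∈ Pr → (a, b, q) ∉ B → Wd (a, q) ≠ Wd (b, q) ∧
        lam ^ 2 * #{z ∈ Q | (a, z) ∈ Pr ∧ (b, z) ∈ Pr ∧ Wd (a, z) = Wd (a, q) ∧
          Wd (b, z) = Wd (b, q)} ≤ 32 * (K * (T * K') * D ^ 6) * #Q := by
  have hK2 := hV.two
  have hl1 := hV.one
  have hl0 : 0 < lam := by linarith
  have hK0 : 0 < K := by linarith
  have hD1 : 1 ≤ D := by linarith
  set A : Finset Pt := Pr.image Prod.fst with hA
  have hap := card_apex h (by linarith) hl0.le hQ0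
  have hTK : 1 ≤ T * K' := by nlinarith
  set x : ℝ := K * (T * K') * D ^ 6 * #Q / lam ^ 2 with hx
  have hl2 : lam ^ 2 ≤ (#Q : ℝ) := by
    refine le_trans ?_ h5
    exact pow_le_pow_right₀ hl1 (by norm_num)
  have hx1 : 1 ≤ x := by
    rw [hx, le_div_iff₀ (by positivity), one_mul]
    have h1 : (1 : ℝ) ≤ K * (T * K') * D ^ 6 := by
      have a2 : (1 : ℝ) ≤ D ^ 6 := one_le_pow₀ hD1
      have a1 : (1 : ℝ) ≤ K * (T * K') := by nlinarith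
      nlinarith
    calc lam ^ 2 ≤ 1 * #Q := by rw [one_mul]; exact hl2
      _ ≤ K * (T * K') * D ^ 6 * #Q := mul_le_mul_of_nonneg_right h1 hQ0.le
  set M : ℕ := ⌈x⌉₊ with hM'
  have hM1 : 1 ≤ M := Nat.one_le_ceil_iff.2 (by linarith)
  have hMx : x ≤ M := Nat.le_ceil x
  have hMx2 : (M : ℝ) ≤ 2 * x := ceil_bd hx1
  have hflag : ∀ z ∈ Q, ∀ w ∈ W,
      lam * (#{a ∈ A | (a, z) ∈ Pr ∧ Wd (a, z) = w} : ℝ) ≤ (T * K') * #A := by
    intro z _ w _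
    have h1 := hfl z w
    have h2 : T * (#Q : ℝ) ≤ T * (K' * lam * #A) := mul_le_mul_of_nonneg_left hap (by linarith)
    have h3 : lam * (lam * (#{a ∈ A | (a, z) ∈ Pr ∧ Wd (a, z) = w} : ℝ)) ≤
        lam * ((T * K') * #A) := by
      calc lam * (lam * (#{a ∈ A | (a, z) ∈ Pr ∧ Wd (a, z) = w} : ℝ))
          = lam ^ 2 * #{a ∈ A | (a, z) ∈ Pr ∧ Wd (a, z) = w} := by ring
        _ ≤ T * #Q := h1
        _ ≤ _ := h2
        _ = _ := by ring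
    exact le_of_mul_le_mul_left h3 hl0
  have hmain := hM K lam Q W I R hV h5 A Pr Wd
    (fun e he => ⟨mem_image.2 ⟨e, he, rfl⟩, h.mem2 e he, h.wdW e he, (h.jq e he).2.1,
      (h.jq e he).2.2.1, (h.jq e he).2.2.2⟩) (T * K') hTK hflag M D hM1 hD1
    (by
      have := hMx
      rw [hx, div_le_iff₀ (by positivity)] at this
      calc K * (T * K') * D ^ 6 * #Q ≤ M * lam ^ 2 := this
        _ = lam ^ 2 * M := by ring)
  set BM : Finset (Pt × Pt × Pt) := {t ∈ A ×ˢ A ×ˢ Q | (t.1, t.2.2) ∈ Pr ∧ (t.2.1, t.2.2) ∈ Pr ∧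
        Wd (t.1, t.2.2) ≠ Wd (t.2.1, t.2.2) ∧
        16 * M ≤ #{z ∈ Q | (t.1, z) ∈ Pr ∧ (t.2.1, z) ∈ Pr ∧
          Wd (t.1, z) = Wd (t.1, t.2.2) ∧ Wd (t.2.1, z) = Wd (t.2.1, t.2.2)}} with hBM
  set BS : Finset (Pt × Pt × Pt) := {t ∈ A ×ˢ A ×ˢ Q | (t.1, t.2.2) ∈ Pr ∧ (t.2.1, t.2.2) ∈ Pr ∧
        Wd (t.1, t.2.2) = Wd (t.2.1, t.2.2)} with hBS
  have hBMc : 2 * S * #BM ≤ (#A : ℝ) ^ 2 * #Q := by
    have e1 : 2056 * S * #BM ≤ 1028 * (#A : ℝ) ^ 2 * #Q :=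
      (mul_le_mul_of_nonneg_right hD (Nat.cast_nonneg _)).trans hmain
    linarith
  have hBSc : 2 * S * #BS ≤ (#A : ℝ) ^ 2 * #Q := by
    -- count over the pairs `(a, q)`
    have e1 : (#BS : ℝ) ≤ ∑ e ∈ Pr, (#{a ∈ A | (a, e.2) ∈ Pr ∧ Wd (a, e.2) = Wd e} : ℝ) := by
      have hmaps : ∀ t ∈ BS, (t.1, t.2.2) ∈ Pr := fun t ht => (mem_filter.1 ht).2.1
      rw [card_eq_sum_card_fiberwise hmaps]
      push_cast
      refine sum_le_sum fun e he => ?_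
      have : #{t ∈ BS | (t.1, t.2.2) = e} ≤ #{a ∈ A | (a, e.2) ∈ Pr ∧ Wd (a, e.2) = Wd e} := by
        refine card_le_card_of_injOn (fun t => t.2.1) ?_ ?_
        · intro t ht
          rw [mem_coe, mem_filter] at ht
          obtain ⟨ht, rfl⟩ := ht
          obtain ⟨ht1, _, ht3, ht4⟩ := mem_filter.1 ht
          obtain ⟨_, ht2⟩ := mem_product.1 ht1
          exact mem_coe.2 (mem_filter.2 ⟨(mem_product.1 ht2).1, ht3, ht4.symm⟩)
        · intro t ht t' ht' htt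
          rw [mem_coe, mem_filter] at ht ht'
          have h2 := ht.2.trans ht'.2.symm
          have h3 := Prod.mk.inj h2
          exact Prod.ext h3.1 (Prod.ext htt h3.2)
      exact_mod_cast this
    have e2 : lam ^ 2 * (#BS : ℝ) ≤ #Pr * (T * #Q) := by
      calc lam ^ 2 * (#BS : ℝ)
          ≤ lam ^ 2 * ∑ e ∈ Pr, (#{a ∈ A | (a, e.2) ∈ Pr ∧ Wd (a, e.2) = Wd e} : ℝ) :=
            mul_le_mul_of_nonneg_left e1 (by positivity)
        _ = ∑ e ∈ Pr, lam ^ 2 * (#{a ∈ A | (a, e.2) ∈ Pr ∧ Wd (a, e.2) = Wd e} : ℝ) :=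
            mul_sum _ _ _
        _ ≤ ∑ _e ∈ Pr, T * (#Q : ℝ) := sum_le_sum fun e _ => hfl e.2 (Wd e)
        _ = _ := by rw [sum_const, nsmul_eq_mul]
    have e3 : lam * (lam * (#BS : ℝ)) ≤ lam * (K' * T * (#A : ℝ) ^ 2 * #Q) := by
      have f1 : (#Pr : ℝ) * (T * #Q) ≤ (#A * #Q) * (T * #Q) :=
        mul_le_mul_of_nonneg_right (card_pr h) (by positivity)
      have f2 : ((#A : ℝ) * #Q) * (T * #Q) ≤ (#A * #Q) * (T * (K' * lam * #A)) := by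
        refine mul_le_mul_of_nonneg_left ?_ (by positivity)
        exact mul_le_mul_of_nonneg_left hap (by linarith)
      calc lam * (lam * (#BS : ℝ)) = lam ^ 2 * #BS := by ring
        _ ≤ _ := e2
        _ ≤ _ := f1
        _ ≤ _ := f2
        _ = _ := by ring
    have e4 : lam * (#BS : ℝ) ≤ K' * T * (#A : ℝ) ^ 2 * #Q := le_of_mul_le_mul_left e3 hl0
    have e5 : (2 * K' * T * S) * (#BS : ℝ) ≤ lam * #BS :=
      mul_le_mul_of_nonneg_right hlam (Nat.cast_nonneg _)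
    have e6 : (K' * T) * (2 * S * (#BS : ℝ)) ≤ (K' * T) * ((#A : ℝ) ^ 2 * #Q) := by linarith
    exact le_of_mul_le_mul_left e6 (by positivity)
  refine ⟨BM ∪ BS, ?_, ?_⟩
  · have e1 : (#(BM ∪ BS) : ℝ) ≤ #BM + #BS := by exact_mod_cast card_union_le _ _
    have e2 : S * (#(BM ∪ BS) : ℝ) ≤ S * (#BM + #BS) := mul_le_mul_of_nonneg_left e1 (by linarith)
    linarith
  · intro a b q ha hb hnot
    have hin : ((a, b, q) : Pt × Pt × Pt) ∈ A ×ˢ A ×ˢ Q :=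
      mem_product.2 ⟨mem_image.2 ⟨_, ha, rfl⟩,
        mem_product.2 ⟨mem_image.2 ⟨_, hb, rfl⟩, h.mem2 (a, q) ha⟩⟩
    have hne : Wd (a, q) ≠ Wd (b, q) := by
      intro heq
      exact hnot (mem_union.2 (Or.inr (mem_filter.2 ⟨hin, ha, hb, heq⟩)))
    refine ⟨hne, ?_⟩
    have hlt : #{z ∈ Q | (a, z) ∈ Pr ∧ (b, z) ∈ Pr ∧ Wd (a, z) = Wd (a, q) ∧
          Wd (b, z) = Wd (b, q)} < 16 * M := by
      by_contra hcon
      exact hnot (mem_union.2 (Or.inl (mem_filter.2 ⟨hin, ha, hb, hne, not_lt.1 hcon⟩)))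
    have hlt' : (#{z ∈ Q | (a, z) ∈ Pr ∧ (b, z) ∈ Pr ∧ Wd (a, z) = Wd (a, q) ∧
          Wd (b, z) = Wd (b, q)} : ℝ) ≤ 16 * M := by
      exact_mod_cast hlt.le
    calc lam ^ 2 * (#{z ∈ Q | (a, z) ∈ Pr ∧ (b, z) ∈ Pr ∧ Wd (a, z) = Wd (a, q) ∧
          Wd (b, z) = Wd (b, q)} : ℝ)
        ≤ lam ^ 2 * (16 * M) := mul_le_mul_of_nonneg_left hlt' (by positivity)
      _ ≤ lam ^ 2 * (16 * (2 * x)) := by
          refine mul_le_mul_of_nonneg_left ?_ (by positivity)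
          linarith
      _ = 32 * (K * (T * K') * D ^ 6) * #Q := by
          rw [hx]
          field_simp
          ring

end Vale.Agent.P065.H989
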