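import Vale.Agent.P065.H989.Poles
import Vale.Agent.P065.H183.SelP
import Vale.Agent.P065.UB.H410.Group
import Vale.Agent.P065.UB.H410.Mult

/-!
# P065, upper bound, MACH1 (helper989): `StPoles`, unconditional
-/

set_option autoImplicit false

namespace Vale.Agent.P065.H989

/-- **MACH1**, unconditional -/
theorem stPoles : StPoles :=
  stPoles_of Vale.Agent.P065.H183.stSel Vale.Agent.P065.UB.H410.stGroup
    Vale.Agent.P065.UB.H410.stMult

end Vale.Agent.P065.H989
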